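import Vale.Agent.P057FZ.Frz
import Vale.Agent.P057SH.Sheet
import Vale.Agent.P057CU.Cuta
import Vale.Agent.P057NA.Wrap

/-!
The cut and the sheet without hypotheses.
-/

open Vale.Agent.P057TP

namespace Vale.Agent.P057FZ

theorem cut0 : CUT := P057SH.cut P057CU.cuta frz P057NA.mtri

theorem sheet0 (s : ℕ) : SHEET s := P057SH.sheet P057CU.cuta cut0 s

end Vale.Agent.P057FZ
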