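import Vale.Agent.P057TP.Ops2
import Mathlib.Analysis.Real.Pi.Bounds

/-!
Freezing of a pinned Gaussian factor.
-/

set_option linter.all false

open Finset
open scoped Real
open Vale.Agent.P057TP

namespace Vale.Agent.P057FZ

noncomputable section

theorem ex_half {x : ℝ} (hx : 0 ≤ x) : Real.exp (-(π * x)) ≤ Real.exp (-(π / 2 * x)) := by
  apply Real.exp_le_exp.2
  have := Real.pi_pos
  nlinarith

theorem ex_tail {x t : ℝ} (h : t ≤ π / 2 * x) :
    Real.exp (-(π * x)) ≤ Real.exp (-t) * Real.exp (-(π / 2 * x)) := by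
  rw [← Real.exp_add]
  apply Real.exp_le_exp.2
  linarith

theorem bulk {qa d R δ : ℝ} (h0 : 0 ≤ qa) (h1 : 0 ≤ d) (hd : d ≤ R ^ 2) (hR : 2 ≤ R) (hδ : 0 ≤ δ)
    (hs : 40 * δ * R ≤ 1) (h : |√qa - √d| ≤ δ) :
    |Real.exp (-(π * qa)) - Real.exp (-(π * d))| ≤ 20 * δ * R * Real.exp (-(π * d)) := by
  have e1 : √d ≤ R := Real.sqrt_le_iff.2 ⟨by linarith, hd⟩
  have e2 : qa - d = (√qa - √d) * (√qa + √d) := by
    have := Real.mul_self_sqrt h0
    have := Real.mul_self_sqrt h1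
    nlinarith
  have e3 : δ ≤ 1 := by nlinarith
  have e4 : √qa + √d ≤ 3 * R := by
    have := (abs_le.1 h).2
    linarith
  have e5 : |qa - d| ≤ δ * (3 * R) := by
    rw [e2, abs_mul, abs_of_nonneg (add_nonneg (Real.sqrt_nonneg _) (Real.sqrt_nonneg _))]
    exact mul_le_mul h e4 (add_nonneg (Real.sqrt_nonneg _) (Real.sqrt_nonneg _)) hδ
  have hp := Real.pi_pos
  have hp2 : π ≤ 3.15 := Real.pi_lt_d2.le
  have e6 : |-(π * (qa - d))| ≤ 10 * (δ * R) := by
    rw [abs_neg, abs_mul, abs_of_pos hp]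
    have : 0 ≤ δ * R := mul_nonneg hδ (by linarith)
    calc π * |qa - d| ≤ 3.15 * (δ * (3 * R)) := mul_le_mul hp2 e5 (abs_nonneg _) (by norm_num)
      _ ≤ 10 * (δ * R) := by nlinarith
  have e7 := Real.abs_exp_sub_one_le (x := -(π * (qa - d))) (by linarith)
  have e8 : Real.exp (-(π * qa)) - Real.exp (-(π * d)) =
      (Real.exp (-(π * (qa - d))) - 1) * Real.exp (-(π * d)) := by
    rw [sub_mul, ← Real.exp_add, one_mul]
    congr 2
    ring
  rw [e8, abs_mul, abs_of_pos (Real.exp_pos _)]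
  exact mul_le_mul_of_nonneg_right (by linarith) (Real.exp_pos _).le

theorem far {q' qa d R δ : ℝ} (h0 : 0 ≤ qa) (h1 : 0 ≤ q') (hR : 2 ≤ R) (hδ : 0 ≤ δ)
    (hs : 40 * δ * R ≤ 1) (h : q' ≤ R ^ 2 → |√qa - √d| ≤ δ) (hb : ¬(q' ≤ R ^ 2 ∧ d ≤ R ^ 2)) :
    R ^ 2 / 3 ≤ π / 2 * (q' + qa) := by
  have hp : 3 ≤ π := Real.pi_gt_three.le
  have key : R ^ 2 / 4 ≤ q' + qa := by
    by_cases hq : q' ≤ R ^ 2
    · have hd : R ^ 2 < d := by
        by_contra hc
        exact hb ⟨hq, not_lt.1 hc⟩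
      have e1 : R ≤ √d := Real.le_sqrt_of_sq_le hd.le
      have e2 := (abs_le.1 (h hq)).1
      have e3 : δ ≤ 1 := by nlinarith
      have e4 : R / 2 ≤ √qa := by linarith
      have e5 := Real.mul_self_sqrt h0
      nlinarith
    · have := not_le.1 hq
      nlinarith
  have : 0 ≤ R ^ 2 := sq_nonneg _
  nlinarith

theorem half {q' R : ℝ} (hR : 2 ≤ R) (hq : R ^ 2 < q') :
    Real.exp (-(π * q')) ≤ Real.exp (-(R ^ 2 / 3)) / 2 * Real.exp (-(π / 2 * q')) := by
  have hp : 3 ≤ π := Real.pi_gt_three.le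
  have h4 : 4 ≤ R ^ 2 := by nlinarith
  have e1 : R ^ 2 / 3 + 1 ≤ π / 2 * q' := by nlinarith
  refine (ex_tail e1).trans (mul_le_mul_of_nonneg_right ?_ (Real.exp_pos _).le)
  rw [neg_add, Real.exp_add]
  have e2 : Real.exp (-1) ≤ 1 / 2 := by
    rw [Real.exp_neg, one_div]
    exact inv_anti₀ (by norm_num) (by have := Real.add_one_le_exp 1; linarith)
  have := mul_le_mul_of_nonneg_left e2 (Real.exp_pos (-(R ^ 2 / 3))).le
  linarith

open Classical in
theorem pw {q' qa d c' cA B κ R δ h : ℝ} (hc : 0 < c') (hA : 0 < cA) (h1 : 0 ≤ q') (h0 : 0 ≤ qa)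
    (hd : 0 ≤ d) (hq : q' ≤ R ^ 2 → |√qa - √d| ≤ δ) (hh : |h| ≤ B) (k0 : 0 ≤ κ) (k1 : κ ≤ B)
    (hR : 2 ≤ R) (hδ : 0 ≤ δ) (hs : 40 * δ * R ≤ 1) :
    c' * cA * Real.exp (-(π * (q' + qa))) * (h - κ) ≤
      (if d ≤ R ^ 2 then cA * Real.exp (-(π * d)) else 0) *
          (c' * Real.exp (-(π * q')) * (h - (κ - 40 * δ * R * B))) +
        2 * B * Real.exp (-(R ^ 2 / 3)) * (c' * cA * Real.exp (-(π / 2 * (q' + qa)))) +
        B * Real.exp (-(R ^ 2 / 3)) *
          (cA * Real.exp (-(π / 2 * d)) * (c' * Real.exp (-(π / 2 * q')))) := by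
  have hB : 0 ≤ B := k0.trans k1
  have a1 := abs_le.1 hh
  have t2 : 0 ≤ 2 * B * Real.exp (-(R ^ 2 / 3)) * (c' * cA * Real.exp (-(π / 2 * (q' + qa)))) := by
    positivity
  have t3 : 0 ≤ B * Real.exp (-(R ^ 2 / 3)) *
      (cA * Real.exp (-(π / 2 * d)) * (c' * Real.exp (-(π / 2 * q')))) := by positivity
  by_cases hb : q' ≤ R ^ 2 ∧ d ≤ R ^ 2
  · rw [if_pos hb.2]
    have b1 := bulk h0 hd hb.2 hR hδ hs (hq hb.1)
    have b2 : |h - κ| ≤ 2 * B := abs_le.2 ⟨by linarith, by linarith⟩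
    have b3 : (Real.exp (-(π * qa)) - Real.exp (-(π * d))) * (h - κ) ≤
        20 * δ * R * Real.exp (-(π * d)) * (2 * B) := by
      refine (le_abs_self _).trans ?_
      rw [abs_mul]
      exact mul_le_mul b1 b2 (abs_nonneg _) ((abs_nonneg _).trans b1)
    have b4 := mul_le_mul_of_nonneg_left b3
      (show 0 ≤ c' * cA * Real.exp (-(π * q')) by positivity)
    have b5 : Real.exp (-(π * (q' + qa))) = Real.exp (-(π * q')) * Real.exp (-(π * qa)) := by
      rw [← Real.exp_add]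
      congr 1
      ring
    rw [b5]
    nlinarith
  · have f1 := ex_tail (far h0 h1 hR hδ hs hq hb)
    have f2 : c' * cA * Real.exp (-(π * (q' + qa))) * (h - κ) ≤
        2 * B * Real.exp (-(R ^ 2 / 3)) * (c' * cA * Real.exp (-(π / 2 * (q' + qa)))) := by
      calc _ ≤ c' * cA * Real.exp (-(π * (q' + qa))) * (2 * B) :=
            mul_le_mul_of_nonneg_left (by linarith) (by positivity)
        _ ≤ c' * cA * (Real.exp (-(R ^ 2 / 3)) * Real.exp (-(π / 2 * (q' + qa)))) * (2 * B) := by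
            gcongr
        _ = _ := by ring
    by_cases hd2 : d ≤ R ^ 2
    · rw [if_pos hd2]
      have hq2 : R ^ 2 < q' := by
        by_contra hc2
        exact hb ⟨not_lt.1 hc2, hd2⟩
      have g1 := half hR hq2
      have g2 := ex_half hd
      have g0 : 40 * δ * R * B ≤ B := by nlinarith
      have g00 : 0 ≤ 40 * δ * R * B := by
        have : 0 ≤ R := by linarith
        positivity
      have g3 : -(2 * B) ≤ h - (κ - 40 * δ * R * B) := by linarith
      have g4 : cA * Real.exp (-(π * d)) * (c' * Real.exp (-(π * q')) * (2 * B)) ≤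
          cA * Real.exp (-(π / 2 * d)) *
            (c' * (Real.exp (-(R ^ 2 / 3)) / 2 * Real.exp (-(π / 2 * q'))) * (2 * B)) := by
        gcongr
      have g5 := mul_le_mul_of_nonneg_left g3
        (show 0 ≤ cA * Real.exp (-(π * d)) * (c' * Real.exp (-(π * q'))) by positivity)
      nlinarith
    · rw [if_neg hd2]
      linarith

theorem frz : FRZ := by
  classical
  intro X Nn Y e Q H Q' QA D c' cA B κ σ R δ M hc hA h0 hD hQ hq ⟨M1, m1, s1⟩ s2 ⟨M3, m3, s3⟩ hH k0
    k1 hσ hM hR hδ hs hε hst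
  have hB : 0 ≤ B := k0.trans k1
  by_contra hcon
  push Not at hcon
  set ε := Real.exp (-(R ^ 2 / 3)) with hε'
  have hε0 : 0 < ε := Real.exp_pos _
  let u : Nn × Y → ℝ := fun p => c' * cA * Real.exp (-(π / 2 * Q (e p)))
  let v : Nn × Y → ℝ := fun p =>
    cA * Real.exp (-(π / 2 * D p.1)) * (c' * Real.exp (-(π / 2 * Q' p.1 p.2)))
  let a : Nn → ℝ := fun n => if D n ≤ R ^ 2 then cA * Real.exp (-(π * D n)) else 0
  let g : Nn × Y → ℝ := fun p => a p.1 *
    (c' * Real.exp (-(π * Q' p.1 p.2)) * (H (e p) - (κ - 40 * δ * R * B)))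
  let f : Nn × Y → ℝ := fun p => c' * cA * Real.exp (-(π * Q (e p))) * (H (e p) - κ)
  have su : HasSum u M1 := e.hasSum_iff.2 s1
  choose M2 m2 s2 using s2
  have a0 : ∀ n, 0 ≤ a n ∧ a n ≤ cA * Real.exp (-(π / 2 * D n)) := by
    intro n
    by_cases h : D n ≤ R ^ 2
    · simp only [a, if_pos h]
      exact ⟨by positivity, mul_le_mul_of_nonneg_left (ex_half (hD n)) hA.le⟩
    · simp only [a, if_neg h]
      exact ⟨le_rfl, by positivity⟩
  have v1 : ∀ n, HasSum (fun y => v (n, y)) (cA * Real.exp (-(π / 2 * D n)) * M2 n) :=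
    fun n => (s2 n).mul_left _
  have v2 : ∀ n, cA * Real.exp (-(π / 2 * D n)) * M2 n ≤ cA * Real.exp (-(π / 2 * D n)) * M :=
    fun n => mul_le_mul_of_nonneg_left (m2 n) (by positivity)
  have v0 : ∀ p, 0 ≤ v p := fun p => by simp only [v]; positivity
  have v3 : Summable fun n => cA * Real.exp (-(π / 2 * D n)) * M2 n :=
    Summable.of_nonneg_of_le (fun n => (v1 n).nonneg fun y => v0 _) v2 (s3.mul_right M).summable
  have sv : Summable v := by
    rw [summable_prod_of_nonneg v0]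
    refine ⟨fun n => (v1 n).summable, ?_⟩
    simpa only [fun n => (v1 n).tsum_eq] using v3
  have tv : ∑' p, v p ≤ M * M := by
    rw [sv.tsum_prod]
    simp only [fun n => (v1 n).tsum_eq]
    refine (v3.tsum_le_tsum v2 (s3.mul_right M).summable).trans ?_
    rw [(s3.mul_right M).tsum_eq]
    exact mul_le_mul_of_nonneg_right m3 (by linarith)
  have g0 : 40 * δ * R * B ≤ B := by nlinarith
  have g00 : 0 ≤ 40 * δ * R * B := by
    have : 0 ≤ R := by linarith
    positivity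
  have sg : Summable g := by
    refine Summable.of_norm_bounded (sv.mul_right (2 * B)) fun p => ?_
    have b1 := abs_le.1 (hH (e p))
    have b2 : |H (e p) - (κ - 40 * δ * R * B)| ≤ 2 * B := abs_le.2 ⟨by linarith, by linarith⟩
    simp only [g, v, Real.norm_eq_abs, abs_mul, abs_of_nonneg (a0 _).1, abs_of_pos hc,
      abs_of_pos (Real.exp_pos _)]
    rw [mul_assoc _ _ (2 * B)]
    refine mul_le_mul (a0 _).2 (mul_le_mul (mul_le_mul_of_nonneg_left (ex_half (h0 _ _).1) hc.le)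
      b2 (abs_nonneg _) (by positivity)) (by positivity) (by positivity)
  have sf : Summable f := by
    refine Summable.of_norm_bounded (su.summable.mul_right (2 * B)) fun p => ?_
    have b1 := abs_le.1 (hH (e p))
    have b2 : |H (e p) - κ| ≤ 2 * B := abs_le.2 ⟨by linarith, by linarith⟩
    have b3 : 0 ≤ Q (e p) := by
      rw [hQ p.1 p.2]
      exact add_nonneg (h0 _ _).1 (h0 _ _).2
    simp only [f, u, Real.norm_eq_abs, abs_mul, abs_of_pos hA, abs_of_pos hc,
      abs_of_pos (Real.exp_pos _)]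
    exact mul_le_mul (mul_le_mul_of_nonneg_left (ex_half b3) (by positivity)) b2 (abs_nonneg _)
      (by positivity)
  have sa : Summable a := Summable.of_nonneg_of_le (fun n => (a0 n).1) (fun n => (a0 n).2)
    s3.summable
  have ta : ∑' n, a n ≤ M := by
    refine (sa.tsum_le_tsum (fun n => (a0 n).2) s3.summable).trans ?_
    rw [s3.tsum_eq]
    exact m3
  have hM0 : 0 < M := by linarith
  have tg : ∑' p, g p ≤ σ / 2 := by
    rw [sg.tsum_prod]
    have c1 : ∀ n, ∑' y, g (n, y) ≤ a n * (σ / (2 * M)) := by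
      intro n
      simp only [g, tsum_mul_left]
      by_cases h : D n ≤ R ^ 2
      · exact mul_le_mul_of_nonneg_left (hcon n h).le (a0 n).1
      · simp only [a, if_neg h, zero_mul, le_refl]
    refine (sg.prod.tsum_le_tsum c1 (sa.mul_right _)).trans ?_
    rw [tsum_mul_right]
    calc _ ≤ M * (σ / (2 * M)) := mul_le_mul_of_nonneg_right ta (by positivity)
      _ = σ / 2 := by field_simp
  have pf : ∀ p, f p ≤ g p + 2 * B * ε * u p + B * ε * v p := by
    intro p
    have := pw hc hA (h0 p.1 p.2).1 (h0 p.1 p.2).2 (hD p.1) (hq p.1 p.2) (hH (e p)) k0 k1 hR hδ hs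
    simp only [f, g, u, v, a, hQ p.1 p.2]
    exact this
  have tf := sf.tsum_le_tsum pf
    ((sg.add (su.summable.mul_left _)).add (sv.mul_left _))
  rw [((sg.hasSum.add (su.mul_left (2 * B * ε))).add (sv.hasSum.mul_left (B * ε))).tsum_eq] at tf
  have ef : ∑' p, f p = ∑' x, c' * cA * Real.exp (-(π * Q x)) * (H x - κ) :=
    e.tsum_eq fun x => c' * cA * Real.exp (-(π * Q x)) * (H x - κ)
  have z1 : 2 * B * ε * M1 ≤ 2 * B * ε * (M * M) :=
    mul_le_mul_of_nonneg_left (by nlinarith) (by positivity)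
  have z2 : B * ε * ∑' p, v p ≤ B * ε * (M * M) := mul_le_mul_of_nonneg_left tv (by positivity)
  have z3 : 8 * B * M ^ 2 * ε = 8 * (B * ε * (M * M)) := by ring
  linarith

end

end Vale.Agent.P057FZ
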